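import Vale.Agent.P097.H60.Base

/-! # P097 / H917 : the biquadratic relation [BQ] from [EF], [ODE]

For fixed `w` put `x = Et (β w) (t + w/2)`, `y = Et (β w) (t - w/2)`, `X = x'`, `Y = y'`, and let
`F` be the biquadratic.  `F_y² = Δ(x) + 4 (1 + 2 J² B x²) F` and `8 J² B X² = - e₁² Δ(x)`, hence
`(F_x X - F_y Y) F' = W F`; at `t = 0` the first factor is `2 X (x - y) (1 + y²) ≠ 0`, `F = 0`. -/

set_option linter.all false

open scoped Topology
open Filter Set Metric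

namespace Vale.Agent.P097.H917

open Vale.Agent.P097 Vale.Agent.P097.LR

/-- order of vanishing -/
theorem ev_zero {F G V : ℂ → ℂ} {z₀ : ℂ} (hF : AnalyticAt ℂ F z₀) (hG : ContinuousAt G z₀)
    (hV : ContinuousAt V z₀) (hG0 : G z₀ ≠ 0) (h0 : F z₀ = 0)
    (h : ∀ᶠ z in 𝓝 z₀, G z * deriv F z = V z * F z) : ∀ᶠ z in 𝓝 z₀, F z = 0 := by
  by_contra hne
  obtain ⟨n, g, hg, hg0, hFg⟩ := (hF.exists_eventuallyEq_pow_smul_nonzero_iff).2 hne
  have hn : n ≠ 0 := by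
    rintro rfl
    have := hFg.self_of_nhds
    rw [h0, pow_zero, one_smul] at this
    exact hg0 this.symm
  obtain ⟨k, rfl⟩ := Nat.exists_eq_succ_of_ne_zero hn
  have hd : ∀ᶠ z in 𝓝 z₀, deriv F z = ((k + 1 : ℕ) : ℂ) * (z - z₀) ^ k * g z + (z - z₀) ^ (k + 1) * deriv g z := by
    have h1 : ∀ᶠ z in 𝓝 z₀, F =ᶠ[𝓝 z] fun z => (z - z₀) ^ (k + 1) • g z := eventually_eventually_nhds.2 hFg
    filter_upwards [h1, hg.eventually_analyticAt] with z hz hgz
    rw [hz.deriv_eq]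
    have h2 : HasDerivAt (fun z => (z - z₀) ^ (k + 1)) (((k + 1 : ℕ) : ℂ) * (z - z₀) ^ k * 1) z := by
      have := ((hasDerivAt_id z).sub_const z₀).fun_pow (k + 1)
      simpa using this
    have h3 := (h2.mul hgz.differentiableAt.hasDerivAt).deriv
    simp only [smul_eq_mul]
    have h4 : deriv (fun z => (z - z₀) ^ (k + 1) * g z) z = deriv ((fun z => (z - z₀) ^ (k + 1)) * g) z := rfl
    rw [h4, h3]
    ring
  have hkey : ∀ᶠ z in 𝓝[≠] z₀, G z * (((k + 1 : ℕ) : ℂ) * g z + (z - z₀) * deriv g z) = V z * ((z - z₀) * g z) := by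
    have h5 : ∀ᶠ z in 𝓝 z₀, G z * deriv F z = V z * F z ∧
        deriv F z = ((k + 1 : ℕ) : ℂ) * (z - z₀) ^ k * g z + (z - z₀) ^ (k + 1) * deriv g z ∧
        F z = (z - z₀) ^ (k + 1) • g z := h.and (hd.and hFg)
    filter_upwards [h5.filter_mono nhdsWithin_le_nhds, self_mem_nhdsWithin] with z hz hzne
    obtain ⟨e1, e2, e3⟩ := hz
    have hz0 : z - z₀ ≠ 0 := sub_ne_zero.2 hzne
    rw [e2, e3, smul_eq_mul] at e1
    have hp : (z - z₀) ^ k ≠ 0 := pow_ne_zero _ hz0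
    apply mul_left_cancel₀ hp
    linear_combination e1
  have hlim1 : Tendsto (fun z => G z * (((k + 1 : ℕ) : ℂ) * g z + (z - z₀) * deriv g z)) (𝓝[≠] z₀)
      (𝓝 (G z₀ * (((k + 1 : ℕ) : ℂ) * g z₀ + (z₀ - z₀) * deriv g z₀))) := by
    apply Tendsto.mono_left _ nhdsWithin_le_nhds
    have hg1 := hg.continuousAt
    have hg2 := hg.deriv.continuousAt
    exact hG.mul ((continuousAt_const.mul hg1).add ((continuousAt_id.sub continuousAt_const).mul hg2))
  have hlim2 : Tendsto (fun z => V z * ((z - z₀) * g z)) (𝓝[≠] z₀) (𝓝 (V z₀ * ((z₀ - z₀) * g z₀))) := by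
    apply Tendsto.mono_left _ nhdsWithin_le_nhds
    have hg1 := hg.continuousAt
    exact hV.mul ((continuousAt_id.sub continuousAt_const).mul hg1)
  have heq := tendsto_nhds_unique (hlim1.congr' hkey) hlim2
  rw [sub_self, zero_mul, zero_mul, mul_zero, add_zero] at heq
  rcases mul_eq_zero.1 heq with h | h
  · exact hG0 h
  · rcases mul_eq_zero.1 h with h | h
    · exact (Nat.cast_ne_zero.2 (Nat.succ_ne_zero k)) h
    · exact hg0 h

/-- the algebra -/
theorem alg {x y X Y P Q A B J : ℂ} (hQ : Q ≠ 0) (hX : X ^ 2 = P * x ^ 2 + Q * (1 + x ^ 4))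
    (hY : Y ^ 2 = P * y ^ 2 + Q * (1 + y ^ 4)) (hM : 2 * Q * (A - J ^ 2 * (A ^ 2 - B ^ 2)) = B * P) :
    ((2 * (x - y) + 4 * J ^ 2 * (A * y + B * x * y ^ 2)) * X -
        (-2 * (x - y) + 4 * J ^ 2 * (A * x + B * x ^ 2 * y)) * Y) *
      ((2 * (x - y) + 4 * J ^ 2 * (A * y + B * x * y ^ 2)) * X +
        (-2 * (x - y) + 4 * J ^ 2 * (A * x + B * x ^ 2 * y)) * Y) =
    (4 * (1 + 2 * J ^ 2 * B * y ^ 2) * X ^ 2 - 4 * (1 + 2 * J ^ 2 * B * x ^ 2) * Y ^ 2) *
      ((x - y) ^ 2 + 4 * J ^ 2 * (A * (x * y) + B / 2 * (1 + (x * y) ^ 2))) := by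
  have e1 : Q * (-2 * (x - y) + 4 * J ^ 2 * (A * x + B * x ^ 2 * y)) ^ 2 + 8 * J ^ 2 * B * X ^ 2 -
      4 * Q * (1 + 2 * J ^ 2 * B * x ^ 2) *
        ((x - y) ^ 2 + 4 * J ^ 2 * (A * (x * y) + B / 2 * (1 + (x * y) ^ 2))) = 0 := by
    linear_combination (8 * J ^ 2 * B) * hX - 8 * J ^ 2 * x ^ 2 * hM
  have e2 : Q * (2 * (x - y) + 4 * J ^ 2 * (A * y + B * x * y ^ 2)) ^ 2 + 8 * J ^ 2 * B * Y ^ 2 -
      4 * Q * (1 + 2 * J ^ 2 * B * y ^ 2) *
        ((x - y) ^ 2 + 4 * J ^ 2 * (A * (x * y) + B / 2 * (1 + (x * y) ^ 2))) = 0 := by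
    linear_combination (8 * J ^ 2 * B) * hY - 8 * J ^ 2 * y ^ 2 * hM
  apply mul_left_cancel₀ hQ
  linear_combination X ^ 2 * e2 - Y ^ 2 * e1

section
variable {a c b₀ r : ℝ} {β J : ℂ → ℂ} (hE : EFac) (hO : ODE) (hP : PAR a c b₀ r β J)

include hE in
theorem Et_an {b : ℂ} (hb : 0 < b.re) {t : ℂ} (h1 : -b.re < t.im) (h2 : t.im < 3 * b.re) :
    AnalyticAt ℂ (Et b) t := by
  have hd : DifferentiableOn ℂ (Et b) {t : ℂ | -b.re < t.im ∧ t.im < 3 * b.re} := by
    have : DifferentiableOn ℂ ((fun p : ℂ × ℂ => Et p.2 p.1) ∘ (fun t : ℂ => (t, b)))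
        {t : ℂ | -b.re < t.im ∧ t.im < 3 * b.re} := by
      refine DifferentiableOn.comp hE.1 (by fun_prop) ?_
      intro t ht
      exact ⟨hb, ht.1, ht.2⟩
    exact this
  have ho : IsOpen {t : ℂ | -b.re < t.im ∧ t.im < 3 * b.re} :=
    (isOpen_lt continuous_const Complex.continuous_im).inter
      (isOpen_lt Complex.continuous_im continuous_const)
  exact hd.analyticAt (ho.mem_nhds ⟨h1, h2⟩)

/-- the biquadratic form -/
noncomputable def bqF (A B j x y : ℂ) : ℂ :=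
  (x - y) ^ 2 + 4 * j ^ 2 * (A * (x * y) + B / 2 * (1 + (x * y) ^ 2))

theorem bqF_deriv {A B j : ℂ} {x y : ℂ → ℂ} {X Y t : ℂ} (hx : HasDerivAt x X t)
    (hy : HasDerivAt y Y t) : HasDerivAt (fun t => bqF A B j (x t) (y t))
    ((2 * (x t - y t) + 4 * j ^ 2 * (A * y t + B * x t * y t ^ 2)) * X +
        (-2 * (x t - y t) + 4 * j ^ 2 * (A * x t + B * x t ^ 2 * y t)) * Y) t := by
  have h1 := (hx.sub hy).fun_pow 2
  have h2 := hx.mul hy
  have h3 := h2.fun_pow 2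
  have h4 := ((h2.const_mul A).add ((h3.const_add 1).const_mul (B / 2))).const_mul (4 * j ^ 2)
  refine (h1.add h4).congr_deriv ?_
  simp only [Pi.mul_apply, Pi.sub_apply]
  push_cast
  ring

theorem an_add {f : ℂ → ℂ} {u : ℂ} (h : AnalyticAt ℂ f u) :
    AnalyticAt ℂ (fun t => f (t + u)) 0 := by
  have h' : AnalyticAt ℂ f ((fun t => t + u) 0) := by simpa using h
  exact AnalyticAt.comp' (f := fun t => t + u) h' (by fun_prop)

/-- one phase `w`: the identity near `t = 0` -/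
theorem near0 {b : ℂ} (hE : EFac) (hO : ODE) (hb : 0 < b.re) {A B j w : ℂ}
    (hw : |(w / 2).im| < b.re) (hB : B ≠ 0) (hmod : mC b * (A - j ^ 2 * (A ^ 2 - B ^ 2)) = B)
    (hst : (Et b (w / 2) - Et b (-(w / 2))) ^ 2 = -4 * (A + B) * j ^ 2) (hj : j ≠ 0)
    (hAB : A + B ≠ 0)
    (hy : 1 + Et b (-(w / 2)) ^ 2 ≠ 0)
    (hx : 2 * (A - j ^ 2 * (A ^ 2 - B ^ 2)) * Et b (w / 2) ^ 2 + B * (1 + Et b (w / 2) ^ 4) ≠ 0) :
    ∀ᶠ t in 𝓝 (0 : ℂ), bqF A B j (Et b (t + w / 2)) (Et b (t - w / 2)) = 0 := by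
  obtain ⟨hw1, hw2⟩ := abs_lt.1 hw
  set P : ℂ := e0 b ^ 2 - 2 * e1 b ^ 2 with hPdef
  set Q : ℂ := e1 b ^ 2 with hQdef
  have hmC : mC b = 2 * Q / P := rfl
  have hP0 : P ≠ 0 := by
    intro h
    rw [hmC, h, div_zero, zero_mul] at hmod
    exact hB hmod.symm
  have hM : 2 * Q * (A - j ^ 2 * (A ^ 2 - B ^ 2)) = B * P := by
    rw [hmC] at hmod
    field_simp at hmod
    linear_combination hmod
  have hQ0 : Q ≠ 0 := pow_ne_zero _ (hE.2 b hb).2.2.2.2.2.2
  -- functions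
  set xf : ℂ → ℂ := fun t => Et b (t + w / 2) with hxf
  set yf : ℂ → ℂ := fun t => Et b (t - w / 2) with hyf
  set Xf : ℂ → ℂ := fun t => deriv (Et b) (t + w / 2) with hXf
  set Yf : ℂ → ℂ := fun t => deriv (Et b) (t - w / 2) with hYf
  have hp : ∀ t : ℂ, |t.im| < b.re → AnalyticAt ℂ (Et b) t := fun t ht => by
    obtain ⟨h1, h2⟩ := abs_lt.1 ht
    exact Et_an hE hb h1 (by linarith)
  have hev : ∀ᶠ t in 𝓝 (0 : ℂ), |(t + w / 2).im| < b.re ∧ |(t - w / 2).im| < b.re := by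
    have c1 : ContinuousAt (fun t : ℂ => |(t + w / 2).im|) 0 := by fun_prop
    have c2 : ContinuousAt (fun t : ℂ => |(t - w / 2).im|) 0 := by fun_prop
    refine (c1.eventually_lt continuousAt_const ?_).and (c2.eventually_lt continuousAt_const ?_)
    · rw [zero_add]; exact hw
    · rw [zero_sub, Complex.neg_im, abs_neg]; exact hw
  have hdx : ∀ᶠ t in 𝓝 (0 : ℂ), HasDerivAt xf (Xf t) t ∧ HasDerivAt yf (Yf t) t ∧
      Xf t ^ 2 = P * xf t ^ 2 + Q * (1 + xf t ^ 4) ∧ Yf t ^ 2 = P * yf t ^ 2 + Q * (1 + yf t ^ 4) := by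
    filter_upwards [hev] with t ht
    refine ⟨?_, ?_, ?_, ?_⟩
    · exact (hp _ ht.1).differentiableAt.hasDerivAt.comp_add_const t (w / 2)
    · exact (hp _ ht.2).differentiableAt.hasDerivAt.comp_sub_const t (w / 2)
    · obtain ⟨h1, h2⟩ := abs_lt.1 ht.1
      exact hO b hb _ h1 (by linarith)
    · obtain ⟨h1, h2⟩ := abs_lt.1 ht.2
      exact hO b hb _ h1 (by linarith)
  -- values at `0`
  have hxy : Et b (w / 2) * Et b (-(w / 2)) = 1 := by
    have := (hE.2 b hb).2.1 (w / 2) hw1 hw2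
    rw [mul_comm]; exact this
  have hYX : deriv (Et b) (-(w / 2)) * Et b (w / 2) = Et b (-(w / 2)) * deriv (Et b) (w / 2) := by
    have hev2 : ∀ᶠ t in 𝓝 (w / 2), -b.re < t.im ∧ t.im < b.re :=
      (continuousAt_const.eventually_lt Complex.continuous_im.continuousAt hw1).and
        (Complex.continuous_im.continuousAt.eventually_lt continuousAt_const hw2)
    have h1 : (fun t => Et b (-t) * Et b t) =ᶠ[𝓝 (w / 2)] fun _ => (1 : ℂ) := by
      filter_upwards [hev2] with t ht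
      exact (hE.2 b hb).2.1 t ht.1 ht.2
    have h2 : HasDerivAt (Et b) (deriv (Et b) (w / 2)) (w / 2) :=
      (hp _ hw).differentiableAt.hasDerivAt
    have hn : |(-(w / 2)).im| < b.re := by rw [Complex.neg_im, abs_neg]; exact hw
    have h3 : HasDerivAt (fun t => Et b (-t)) (-deriv (Et b) (-(w / 2))) (w / 2) := by
      have h4 : HasDerivAt (Et b) (deriv (Et b) (-(w / 2))) (-(w / 2)) :=
        (hp _ hn).differentiableAt.hasDerivAt
      have h5 := HasDerivAt.scomp (w / 2) h4 (hasDerivAt_neg (w / 2))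
      refine h5.congr_deriv ?_
      simp
    have h6 := (h3.mul h2).unique ((hasDerivAt_const (w / 2) (1 : ℂ)).congr_of_eventuallyEq h1)
    linear_combination -h6
  have hODE0 : deriv (Et b) (w / 2) ^ 2 = P * Et b (w / 2) ^ 2 + Q * (1 + Et b (w / 2) ^ 4) :=
    hO b hb _ hw1 (by linarith)
  have hX0 : deriv (Et b) (w / 2) ≠ 0 := by
    intro h
    rw [h] at hODE0
    apply mul_ne_zero hQ0 hx
    linear_combination (Et b (w / 2) ^ 2) * hM - B * hODE0
  have hxy0 : Et b (w / 2) - Et b (-(w / 2)) ≠ 0 := by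
    intro h
    rw [h] at hst
    have h7 : (A + B) * j ^ 2 = 0 := by linear_combination (1 / 4) * hst
    exact mul_ne_zero hAB (pow_ne_zero 2 hj) h7
  have hYeq : deriv (Et b) (-(w / 2)) = Et b (-(w / 2)) ^ 2 * deriv (Et b) (w / 2) := by
    linear_combination Et b (-(w / 2)) * hYX - deriv (Et b) (-(w / 2)) * hxy
  have x0 : xf 0 = Et b (w / 2) := by simp only [hxf, zero_add]
  have y0 : yf 0 = Et b (-(w / 2)) := by simp only [hyf, zero_sub]
  have X0 : Xf 0 = deriv (Et b) (w / 2) := by simp only [hXf, zero_add]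
  have Y0 : Yf 0 = deriv (Et b) (-(w / 2)) := by simp only [hYf, zero_sub]
  have hn : |(-(w / 2)).im| < b.re := by rw [Complex.neg_im, abs_neg]; exact hw
  have ax : AnalyticAt ℂ xf 0 := an_add (hp _ hw)
  have ay : AnalyticAt ℂ yf 0 := by
    have := an_add (hp _ hn)
    simpa only [hyf, sub_eq_add_neg] using this
  have aX : AnalyticAt ℂ Xf 0 := an_add (hp _ hw).deriv
  have aY : AnalyticAt ℂ Yf 0 := by
    have := an_add (hp _ hn).deriv
    simpa only [hYf, sub_eq_add_neg] using this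
  clear_value P Q xf yf Xf Yf
  suffices key : ∀ᶠ t in 𝓝 (0 : ℂ), bqF A B j (xf t) (yf t) = 0 by
    rw [hxf, hyf] at key
    exact key
  refine ev_zero (F := fun t => bqF A B j (xf t) (yf t))
    (G := fun t => (2 * (xf t - yf t) + 4 * j ^ 2 * (A * yf t + B * xf t * yf t ^ 2)) * Xf t -
        (-2 * (xf t - yf t) + 4 * j ^ 2 * (A * xf t + B * xf t ^ 2 * yf t)) * Yf t)
    (V := fun t => 4 * (1 + 2 * j ^ 2 * B * yf t ^ 2) * Xf t ^ 2 -
      4 * (1 + 2 * j ^ 2 * B * xf t ^ 2) * Yf t ^ 2) ?_ ?_ ?_ ?_ ?_ ?_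
  · unfold bqF
    fun_prop
  · have := ax.continuousAt
    have := ay.continuousAt
    have := aX.continuousAt
    have := aY.continuousAt
    fun_prop
  · have := ax.continuousAt
    have := ay.continuousAt
    have := aX.continuousAt
    have := aY.continuousAt
    fun_prop
  · rw [x0, y0, X0, Y0, hYeq]
    intro h
    apply mul_ne_zero (mul_ne_zero (mul_ne_zero two_ne_zero hX0) hxy0) hy
    linear_combination h + (4 * j ^ 2 * deriv (Et b) (w / 2) *
      (A * Et b (-(w / 2)) + B * Et b (w / 2) * Et b (-(w / 2)) ^ 2)) * hxy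
  · rw [x0, y0]
    unfold bqF
    rw [hxy]
    linear_combination hst
  · filter_upwards [hdx] with t ht
    obtain ⟨h1, h2, h3, h4⟩ := ht
    rw [(bqF_deriv (A := A) (B := B) (j := j) h1 h2).deriv]
    exact alg hQ0 h3 h4 hM

end

theorem cAB (a c : ℝ) : (cA a c : ℂ) + cB a c = (a : ℂ) ^ 2 := by
  unfold cA cB
  push_cast
  ring

/-- nonvanishing for small `w` -/
theorem small {a c b₀ r : ℝ} {β J : ℂ → ℂ} (hE : EFac) (hP : PAR a c b₀ r β J) {A B : ℂ}
    (hA2 : A + B ≠ 0) : ∃ r' : ℝ, 0 < r' ∧ r' ≤ r ∧ ∀ w : ℂ, ‖w‖ < r' →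
      1 + Et (β w) (-(w / 2)) ^ 2 ≠ 0 ∧
      2 * (A - J w ^ 2 * (A ^ 2 - B ^ 2)) * Et (β w) (w / 2) ^ 2 +
        B * (1 + Et (β w) (w / 2) ^ 4) ≠ 0 := by
  have hb := hP.hb₀
  have hr := hP.hr
  have hF := H60.F_jd hE hP
  have h00 : ((0 : ℂ), (0 : ℂ)) ∈ H60.DF b₀ r :=
    ⟨⟨by simp only [Complex.zero_im]; linarith, by simp only [Complex.zero_im]; linarith⟩,
      by simp only [norm_zero]; exact hr⟩
  have hc0 : ContinuousAt (fun p : ℂ × ℂ => Et (β p.2) p.1) (0, 0) :=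
    (hF.differentiableAt ((H60.isOpen_DF _ _).mem_nhds h00)).continuousAt
  have hE0 : Et (β 0) 0 ^ 2 = 1 := by
    have h1 := (hE.2 (β 0) (by rw [hP.β0]; simpa using hb)).2.1 0
      (by rw [hP.β0]; simpa using hb) (by rw [hP.β0]; simpa using hb)
    rw [neg_zero] at h1
    rw [sq]; exact h1
  have c3 : ContinuousAt J 0 :=
    (hP.dJ.differentiableAt (ball_mem_nhds _ hr)).continuousAt
  have hJ0 := H60.J0 hP
  obtain ⟨F, hFdef⟩ : ∃ F : ℂ × ℂ → ℂ, F = fun p : ℂ × ℂ => Et (β p.2) p.1 := ⟨_, rfl⟩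
  rw [← hFdef] at hc0
  have hF1 : ∀ t w : ℂ, Et (β w) t = F (t, w) := fun t w => by rw [hFdef]
  simp only [hF1] at hE0 ⊢
  clear hFdef hF1 hF
  have c1 : ContinuousAt (fun w : ℂ => F (w / 2, w)) 0 := by
    have h1 : ContinuousAt (fun w : ℂ => (w / 2, w)) 0 := by fun_prop
    have h2 : ContinuousAt F ((fun w : ℂ => (w / 2, w)) 0) := by
      simpa using hc0
    exact ContinuousAt.comp (g := F) h2 h1
  have c2 : ContinuousAt (fun w : ℂ => F (-(w / 2), w)) 0 := by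
    have h1 : ContinuousAt (fun w : ℂ => (-(w / 2), w)) 0 := by fun_prop
    have h2 : ContinuousAt F ((fun w : ℂ => (-(w / 2), w)) 0) := by
      simpa using hc0
    exact ContinuousAt.comp (g := F) h2 h1
  have n1 : ∀ᶠ w in 𝓝 (0 : ℂ), 1 + F (-(w / 2), w) ^ 2 ≠ 0 := by
    have c4 : ContinuousAt (fun w : ℂ => 1 + F (-(w / 2), w) ^ 2) 0 :=
      continuousAt_const.add (c2.pow 2)
    apply c4.eventually_ne
    simp only [zero_div, neg_zero]
    rw [hE0]
    norm_num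
  have n2 : ∀ᶠ w in 𝓝 (0 : ℂ),
      2 * (A - J w ^ 2 * (A ^ 2 - B ^ 2)) * F (w / 2, w) ^ 2 + B * (1 + F (w / 2, w) ^ 4) ≠ 0 := by
    have c4 : ContinuousAt (fun w : ℂ =>
      2 * (A - J w ^ 2 * (A ^ 2 - B ^ 2)) * F (w / 2, w) ^ 2 + B * (1 + F (w / 2, w) ^ 4)) 0 :=
      ((continuousAt_const.mul (continuousAt_const.sub ((c3.pow 2).mul continuousAt_const))).mul
        (c1.pow 2)).add (continuousAt_const.mul (continuousAt_const.add (c1.pow 4)))
    apply c4.eventually_ne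
    simp only [zero_div]
    have e4 : F (0, 0) ^ 4 = 1 := by
      have : F (0, 0) ^ 4 = (F (0, 0) ^ 2) ^ 2 := by ring
      rw [this, hE0]; norm_num
    rw [hE0, e4, hJ0]
    intro h
    apply mul_ne_zero two_ne_zero hA2
    linear_combination h
  obtain ⟨δ, hδ, hδ'⟩ := Metric.eventually_nhds_iff_ball.1 (n1.and n2)
  refine ⟨min δ r, lt_min hδ hr, min_le_right _ _, fun w hw => hδ' w ?_⟩
  rw [mem_ball_zero_iff]
  exact lt_of_lt_of_le hw (min_le_left _ _)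

/-- identity theorem in `t` -/
theorem ident {b A B j w : ℂ} {b₀ : ℝ} (hE : EFac) (hb₀ : 0 < b₀) (hβ : 7 * b₀ / 8 < b.re)
    (hw : |(w / 2).im| < b₀ / 16)
    (h0 : ∀ᶠ t in 𝓝 (0 : ℂ), bqF A B j (Et b (t + w / 2)) (Et b (t - w / 2)) = 0) {t : ℂ}
    (ht1 : -(b₀ / 4) < t.im) (ht2 : t.im < 5 * b₀ / 2) :
    bqF A B j (Et b (t + w / 2)) (Et b (t - w / 2)) = 0 := by
  have hbre : 0 < b.re := by linarith
  set D : Set ℂ := {t : ℂ | -(b₀ / 4) < t.im ∧ t.im < 5 * b₀ / 2} with hD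
  have hDp : IsPreconnected D := by
    have : Convex ℝ D :=
      (convex_halfSpace_im_gt _).inter (convex_halfSpace_im_lt _)
    exact this.isPreconnected
  obtain ⟨hi1, hi2⟩ := abs_lt.1 hw
  have hDa : AnalyticOnNhd ℂ (fun t => bqF A B j (Et b (t + w / 2)) (Et b (t - w / 2))) D := by
    intro t ht
    have h1 : AnalyticAt ℂ (Et b) (t + w / 2) := by
      apply Et_an hE hbre
      · rw [Complex.add_im]; linarith [ht.1]
      · rw [Complex.add_im]; linarith [ht.2]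
    have h2 : AnalyticAt ℂ (Et b) (t - w / 2) := by
      apply Et_an hE hbre
      · rw [Complex.sub_im]; linarith [ht.1]
      · rw [Complex.sub_im]; linarith [ht.2]
    have h3 : AnalyticAt ℂ (fun t => Et b (t + w / 2)) t :=
      AnalyticAt.comp' (f := fun t => t + w / 2) h1 (by fun_prop)
    have h4 : AnalyticAt ℂ (fun t => Et b (t - w / 2)) t :=
      AnalyticAt.comp' (f := fun t => t - w / 2) h2 (by fun_prop)
    unfold bqF
    fun_prop
  have h0D : (0 : ℂ) ∈ D := ⟨by simp only [Complex.zero_im]; linarith, by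
    simp only [Complex.zero_im]; linarith⟩
  exact hDa.eqOn_zero_of_preconnected_of_eventuallyEq_zero hDp h0D h0
    (show t ∈ D from ⟨ht1, ht2⟩)

/-- [BQ] -/
theorem bq (hE : EFac) (hO : ODE) : BQ := by
  intro a c hc hca b₀ r β J hP
  have hb := hP.hb₀
  have hrb := H60.r_lt hP
  have ha : 0 < a := lt_trans hc hca
  have hAB := cAB a c
  have hA2 : (cA a c : ℂ) + cB a c ≠ 0 := by
    rw [hAB]
    exact pow_ne_zero 2 (Complex.ofReal_ne_zero.2 ha.ne')
  have hB : (cB a c : ℂ) ≠ 0 := by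
    rw [Ne, Complex.ofReal_eq_zero]
    unfold cB
    have : c ^ 2 < a ^ 2 := by nlinarith
    intro h
    linarith
  obtain ⟨r', hr', hrr, hne⟩ := small hE hP hA2
  refine ⟨r', hr', hrr, fun t w hw ht1 ht2 => ?_⟩
  have hwr : ‖w‖ < r := lt_of_lt_of_le hw hrr
  by_cases hw0 : w = 0
  · subst hw0
    rw [H60.J0 hP]
    simp
  have hβ := H60.β_re hP hwr
  have hbre : 0 < (β w).re := by linarith [hβ.1]
  have hwim := H60.half_im_le hwr
  have hw' : |(w / 2).im| < (β w).re := by linarith [hβ.1]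
  have hst : (Et (β w) (w / 2) - Et (β w) (-(w / 2))) ^ 2 = -4 * (cA a c + cB a c) * J w ^ 2 := by
    rw [hP.start w hwr, hAB]
    linear_combination (4 * a ^ 2 * J w ^ 2) * Complex.I_sq
  have hloc := near0 hE hO hbre hw' hB (hP.mod w hwr) hst (hP.Jne w hwr hw0) hA2 (hne w hw).1
    (hne w hw).2
  exact ident hE hb hβ.1 (by linarith) hloc ht1 ht2

end Vale.Agent.P097.H917
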